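import Mathlib
import Vale.Agent.P249.Defs
import Vale.Agent.P249.Final

universe u

namespace Vale.Agent.Results.P249.BothBounds

open MeasureTheory Vale.Agent.P249
open scoped ENNReal

/-- Two-sided bounds for the dimension `d_p(n, D)` of `n`-point subsets of `L_p`, for all
`1 ≤ p < ∞`, all `D > 1` and all `n ≥ 16`. -/
theorem result (p : ℝ≥0∞) [Fact (1 ≤ p)] (hp : p ≠ ∞) :
    ∃ c C : ℝ, 0 < c ∧ 0 < C ∧ ∀ n : ℕ, 16 ≤ n → ∀ D : ℝ, 1 < D →
      IsLeast {d : ℕ | AllEmbed.{u} p n D d} (dimLp.{u} p n D) ∧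
      c * (Real.log n / Real.log (Real.log n)) ^ (p.toReal / 2) / D ^ p.toReal ≤
        (dimLp.{u} p n D : ℝ) ∧
      (dimLp.{u} p n D : ℝ) ≤
        C * ((D + 1) / (D - 1)) ^ 2 * n * Real.log n ^ (p.toReal + 2) :=
  bounds.{u} p hp

end Vale.Agent.Results.P249.BothBounds
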